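import Vale.Agent.P323.SmallIndex

namespace Vale.Agent.Results.P323.ContinuumOvergroups

universe u

theorem result {G : Type u} [Group G] [TopologicalSpace G] [IsTopologicalGroup G]
    (U₀ : Subgroup G) (hU₀ : IsOpen (U₀ : Set G))
    (PP : ∀ U : Subgroup G, IsOpen (U : Set G) → U ≤ U₀ →
      ∀ (X Y : Type u) [MulAction U X] [MulAction U Y],
      (∀ x : X, IsOpen (MulAction.stabilizer U x : Set U)) →
      (∀ y : Y, IsOpen (MulAction.stabilizer U y : Set U)) →
      ∀ f : X → Y, Function.Surjective f → (∀ (g : U) x, f (g • x) = g • f x) →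
      ∃ V : Subgroup G, IsOpen (V : Set G) ∧ V ≤ U ∧ ∃ j : Y → X, Function.Injective j ∧
        ∀ g : U, (g : G) ∈ V → ∀ y, j (g • y) = g • j y) :
    (∃ V : Subgroup G, IsOpen (V : Set G) ∧ ∀ W : Subgroup G, IsOpen (W : Set G) → V ≤ W) ∨
    ∀ U : Subgroup G, IsOpen (U : Set G) → U ≤ U₀ →
      (∃ M : Subgroup G, IsOpen (M : Set G) ∧ M ≤ U ∧
        Cardinal.continuum ≤ Cardinal.mk (U ⧸ M.subgroupOf U)) ∧
      ∃ B : Subgroup G, IsOpen (B : Set G) ∧ B ≤ U ∧
        Cardinal.continuum ≤ Cardinal.mk {W : Subgroup G // B ≤ W ∧ W ≤ U} :=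
  or_iff_not_imp_left.2 fun hno U hU hUU₀ =>
    Vale.Agent.P323.pp_small_index U hU
      (fun U' hU' hle => PP U' hU' (hle.trans hUU₀)) hno

end Vale.Agent.Results.P323.ContinuumOvergroups
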