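import Vale.Agent.P323.PermPP

namespace Vale.Agent.Results.P323.PermutationModels

universe u

theorem result {G : Type u} [Group G] [TopologicalSpace G] [IsTopologicalGroup G]
    (U : Subgroup G) (hU : IsOpen (U : Set G))
    (PP : ∀ (X Y : Type u) [MulAction U X] [MulAction U Y],
      (∀ x : X, IsOpen (MulAction.stabilizer U x : Set U)) →
      (∀ y : Y, IsOpen (MulAction.stabilizer U y : Set U)) →
      ∀ f : X → Y, Function.Surjective f → (∀ (g : U) x, f (g • x) = g • f x) →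
      ∃ V : Subgroup G, IsOpen (V : Set G) ∧ V ≤ U ∧ ∃ j : Y → X, Function.Injective j ∧
        ∀ g : U, (g : G) ∈ V → ∀ y, j (g • y) = g • j y) :
    ((∀ V : Subgroup G, IsOpen (V : Set G) → V ≤ U → ∃ M : Subgroup G,
      IsOpen (M : Set G) ∧ M ≤ V ∧ ∀ V' : Subgroup G, IsOpen (V' : Set G) → V' ≤ U → M < V' →
        ∃ W : Subgroup G, M ≤ W ∧ W ≤ V' ∧
          ∀ g ∈ U, W ≠ V' ⊓ M.map (MulAut.conj g).toMonoidHom) →
      ∃ V : Subgroup G, IsOpen (V : Set G) ∧ ∀ W : Subgroup G, IsOpen (W : Set G) → V ≤ W) ∧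
    ((∀ V : Subgroup G, IsOpen (V : Set G) → V ≤ U → ∃ M : Subgroup G,
      IsOpen (M : Set G) ∧ M ≤ V ∧ ∀ g ∈ U, ¬ M < M.map (MulAut.conj g).toMonoidHom) →
      ∃ V : Subgroup G, IsOpen (V : Set G) ∧ ∀ W : Subgroup G, IsOpen (W : Set G) → V ≤ W) := by
  refine ⟨Vale.Agent.P323.pp_perm U hU PP, fun h => Vale.Agent.P323.pp_perm U hU PP fun V hV hVU => ?_⟩
  obtain ⟨M, hMo, hMV, hM⟩ := h V hV hVU
  refine ⟨M, hMo, hMV, fun V' _ _ hlt => ⟨V', hlt.le, le_rfl, fun g hg he => hM g hg ?_⟩⟩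
  exact lt_of_lt_of_le hlt (he.le.trans inf_le_right)

end Vale.Agent.Results.P323.PermutationModels
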